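import Vale.Agent.P313.H215.UD.C2

/-!
Universal derandomization, module C1: soundness of the check.
-/

namespace Vale.Agent.P313.UD.C1

open Finset Vale.Agent.P313.UD.C2

theorem sum_cf {cs : ℕ → Bool → ℕ} {V : ℕ} (hcs : ∀ v < V, ∀ b, cs v b < V) {w : ℕ} (hw : w < V) :
    ∑ u ∈ range V, cf cs w u = 2 := by
  unfold cf
  rw [sum_add_distrib, sum_ite_eq, sum_ite_eq, if_pos (mem_range.2 (hcs w hw false)),
    if_pos (mem_range.2 (hcs w hw true))]
  norm_num

/-- MODULE C1. -/
theorem chkSound : ChkSound := by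
  intro q cs V s0 T K hC hcs hs0 hK
  have hcs' : ∀ v < V, ∀ b, toB cs v b < V := by
    intro v hv b
    refine hcs v hv b.toNat ?_
    cases b <;> simp
  -- the inflow as a rational number
  have hI : ∀ t u, ((infl q cs V K t u : ℕ) : ℚ) =
      ∑ w ∈ range V, (est q K t w : ℚ) * cf (toB cs) w u := by
    intro t u
    unfold infl
    rw [Nat.cast_sum]
    refine sum_congr rfl fun w _ => ?_
    have e0 : toB cs w false = cs w 0 := rfl
    have e1 : toB cs w true = cs w 1 := rfl
    unfold cf
    rw [e0, e1]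
    push_cast
    split_ifs <;> ring
  -- the error of one estimate
  set er : ℕ → ℕ → ℚ := fun t u => |(est q K t u : ℚ) - K * hit (toB cs) u t s0| with her
  have her0 : ∀ t u, 0 ≤ er t u := fun t u => abs_nonneg _
  have hstep : ∀ t < T, ∀ u < V, 2 * er (t + 1) u ≤
      (2 * V + 2) + ∑ w ∈ range V, er t w * cf (toB cs) w u := by
    intro t ht u hu
    obtain ⟨h1, h2⟩ := hC.2 t ht u hu
    have h1' : (2 : ℚ) * est q K (t + 1) u ≤ infl q cs V K t u + (2 * V + 2) := by exact_mod_cast h1
    have h2' : (infl q cs V K t u : ℚ) ≤ 2 * est q K (t + 1) u + (2 * V + 2) := by exact_mod_cast h2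
    have hl := hit_last hcs' u t s0 hs0
    have h3 : |(infl q cs V K t u : ℚ) - K * (2 * hit (toB cs) u (t + 1) s0)| ≤
        ∑ w ∈ range V, er t w * cf (toB cs) w u := by
      rw [hI, hl, mul_sum, ← sum_sub_distrib]
      refine (abs_sum_le_sum_abs _ _).trans (sum_le_sum fun w _ => le_of_eq ?_)
      rw [her]
      have : (est q K t w : ℚ) * cf (toB cs) w u - K * (hit (toB cs) w t s0 * cf (toB cs) w u) =
          ((est q K t w : ℚ) - K * hit (toB cs) w t s0) * cf (toB cs) w u := by ring
      rw [this, abs_mul, abs_of_nonneg (cf_nonneg (toB cs) w u)]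
    have h4 := abs_le.1 h3
    have h5 : 2 * er (t + 1) u =
        |2 * ((est q K (t + 1) u : ℚ) - K * hit (toB cs) u (t + 1) s0)| := by
      rw [abs_mul, abs_of_nonneg (by norm_num : (0 : ℚ) ≤ 2)]
    rw [h5, abs_le]
    constructor <;> linarith [h4.1, h4.2]
  have hS : ∀ t ≤ T, ∑ u ∈ range V, er t u ≤ (t + 1) * (V * (V + 1)) := by
    intro t
    induction t with
    | zero =>
      intro _
      have h1 : ∀ u ∈ range V, er 0 u ≤ 1 := by
        intro u hu
        obtain ⟨a1, a2⟩ := hC.1 u (mem_range.1 hu)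
        have h3 : hit (toB cs) u 0 s0 = if s0 = u then 1 else 0 := rfl
        rw [her]
        show |(est q K 0 u : ℚ) - K * hit (toB cs) u 0 s0| ≤ 1
        rw [h3, abs_le]
        by_cases hus : u = s0
        · subst hus
          simp only [if_true, mul_one] at a1 a2 ⊢
          have a1' : (est q K 0 u : ℚ) ≤ K + 1 := by exact_mod_cast a1
          have a2' : (K : ℚ) ≤ est q K 0 u + 1 := by exact_mod_cast a2
          constructor <;> linarith
        · have hsu : ¬ s0 = u := fun h => hus h.symm
          simp only [hsu, hus, if_false, mul_zero, zero_add] at a1 a2 ⊢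
          have a1' : (est q K 0 u : ℚ) ≤ 1 := by exact_mod_cast a1
          have a2' : (0 : ℚ) ≤ est q K 0 u := by positivity
          constructor <;> linarith
      have h2 := sum_le_sum h1
      rw [sum_const, card_range, nsmul_eq_mul, mul_one] at h2
      have h3 : (0 : ℚ) ≤ (V : ℚ) := by positivity
      push_cast
      nlinarith
    | succ t ih =>
      intro ht
      have h1 := ih (by omega)
      have h2 : ∑ u ∈ range V, 2 * er (t + 1) u ≤ ∑ u ∈ range V,
          ((2 * (V : ℚ) + 2) + ∑ w ∈ range V, er t w * cf (toB cs) w u) :=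
        sum_le_sum fun u hu => hstep t (by omega) u (mem_range.1 hu)
      rw [← mul_sum, sum_add_distrib, sum_const, card_range, nsmul_eq_mul, sum_comm] at h2
      have h3 : ∑ w ∈ range V, ∑ u ∈ range V, er t w * cf (toB cs) w u =
          ∑ w ∈ range V, er t w * 2 := by
        refine sum_congr rfl fun w hw => ?_
        rw [← mul_sum, sum_cf hcs' (mem_range.1 hw)]
      rw [h3, ← sum_mul] at h2
      push_cast
      nlinarith
  intro u hu
  have h1 := hS T le_rfl
  have h2 : er T u ≤ ∑ u ∈ range V, er T u :=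
    single_le_sum (f := fun u => er T u) (fun i _ => her0 T i) (mem_range.2 hu)
  have h3 : ((12 * (T + 1) * (V + 1) ^ 2 : ℕ) : ℚ) ≤ (K : ℚ) := by exact_mod_cast hK
  push_cast at h3
  have h4 : (0 : ℚ) ≤ (V : ℚ) := by positivity
  have h5 : (0 : ℚ) ≤ (T : ℚ) := by positivity
  have h6 : ((T : ℚ) + 1) * (V * (V + 1)) ≤ (T + 1) * (V + 1) ^ 2 := by
    apply mul_le_mul_of_nonneg_left _ (by positivity)
    nlinarith
  have h7 : er T u ≤ K / 12 := by linarith
  exact h7

end Vale.Agent.P313.UD.C1
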