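import Vale.Agent.P313.H589.UD.U1a

/-!
Universal derandomization, module U1: every deterministic machine is simulated.
-/

namespace Vale.Agent.P313.UD.U1

open Finset

variable {D : RTM}

/-- The view of a configuration. -/
def vw (y : List Bool) (c : D.Cfg) : KT D := (c.state, inSym y c.pos, fun i => (c.work i).head)

theorem nd_pos : 0 < D.nd := by unfold RTM.nd; omega

section digits

variable {P : ℕ → ℕ} {W N : ℕ} {y : List Bool} {c : D.Cfg}

theorem dgt_enc (hs : D.Small W c) {i : ℕ} (hi : i < D.nd) : dgt W (D.enc W c) i = D.dig c i :=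
  D.enc_digit hs hi

theorem ukey_eq (G : Good D P W) (hN : D.g ^ D.tapes ≤ N) (hs : D.Small W c) :
    ukey (fun p => syc (inSym y p)) P N (D.enc W c) = kcode D (vw y c) := by
  have h0 : dgt W (D.enc W c) 0 = D.cQ c.state := by
    rw [dgt_enc hs nd_pos]; simp [RTM.dig]
  have h1 : dgt W (D.enc W c) 1 = c.pos := by
    rw [dgt_enc hs (by unfold RTM.nd; omega)]; simp [RTM.dig]
  have h2 : ∀ i ∈ range D.tapes, dgt W (D.enc W c) (2 + D.tapes + i) * min (D.g ^ i) (N + 1) =
      hdg D (vw y c).2.2 i * D.g ^ i := by
    intro i hi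
    rw [mem_range] at hi
    have hg : D.g ^ i ≤ D.g ^ D.tapes := Nat.pow_le_pow_right (by have := D.two_le_g; omega) hi.le
    rw [min_eq_left (by omega), dgt_enc hs (by unfold RTM.nd; omega)]
    congr 1
    unfold RTM.dig hdg
    rw [if_neg (by omega), if_neg (by omega), dif_neg (by omega), dif_pos (by omega), dif_pos hi]
    congr 3
    apply Fin.ext
    simp only
    omega
  unfold ukey kcode
  rw [G.p0, G.p1, G.p2, G.p7, h0, h1]
  congr 2
  congr 2
  exact sum_congr rfl h2

/-- The digits of the next configuration. -/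
theorem und_eq (hD : D.Deterministic) (G : Good D P W) (hs : D.Small W c) (b : Bool) {j : ℕ}
    (hj : j < D.nd) :
    und y.length P (kcode D (vw y c)) (D.enc W c) j = D.dig (D.step y c b) j := by
  have hview : D.trans c.state (inSym y c.pos) (fun i => (c.work i).head)
      (D.coin c.state && b) = D.trans (vw y c).1 (vw y c).2.1 (vw y c).2.2 false := by
    rw [hD c.state]; rfl
  have hstep : D.step y c b = ⟨(D.trans (vw y c).1 (vw y c).2.1 (vw y c).2.2 false).1,
      moveIn y.length (D.trans (vw y c).1 (vw y c).2.1 (vw y c).2.2 false).2.1 c.pos,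
      fun i => Tape.move D.blank ((D.trans (vw y c).1 (vw y c).2.1 (vw y c).2.2 false).2.2 i).2
        (Tape.write ((D.trans (vw y c).1 (vw y c).2.1 (vw y c).2.2 false).2.2 i).1
          (c.work i))⟩ := by
    unfold RTM.step
    simp only [hview]
  rw [hstep]
  unfold und
  rw [G.p0, G.p1, G.p7]
  conv_rhs => unfold RTM.dig
  unfold RTM.nd at hj
  split_ifs with h1 h2 h3 h4 h5
  · rw [G.p5 _ _ (by omega)]; rfl
  · rw [G.p5 _ _ (by omega), dgt_enc hs (by unfold RTM.nd; omega)]
    have e1 : val D (vw y c) 1 =
      dcode (D.trans (vw y c).1 (vw y c).2.1 (vw y c).2.2 false).2.1 := rfl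
    have e2 : D.dig c 1 = c.pos := by simp [RTM.dig]
    rw [e1, e2, ← moveIn_eq]
  · have e1 : D.dig c j = D.num (c.work ⟨j - 2, h3⟩).left := by
      unfold RTM.dig; rw [if_neg h1, if_neg h2, dif_pos h3]
    have e2 : val D (vw y c) (2 + 2 * (j - 2)) =
        D.cS ((D.trans (vw y c).1 (vw y c).2.1 (vw y c).2.2 false).2.2 ⟨j - 2, h3⟩).1 := by
      have e3 : (2 + 2 * (j - 2) - 2) / 2 = j - 2 := by omega
      unfold val
      rw [if_neg (by omega), if_neg (by omega)]
      simp only [e3]
      rw [dif_pos h3, if_pos (by omega)]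
    have e4 : val D (vw y c) (3 + 2 * (j - 2)) =
        dcode ((D.trans (vw y c).1 (vw y c).2.1 (vw y c).2.2 false).2.2 ⟨j - 2, h3⟩).2 := by
      have e3 : (3 + 2 * (j - 2) - 2) / 2 = j - 2 := by omega
      unfold val
      rw [if_neg (by omega), if_neg (by omega)]
      simp only [e3]
      rw [dif_pos h3, if_neg (by omega)]
    rw [G.p5 _ _ (by omega), G.p5 _ _ (by omega), e2, e4, dgt_enc hs (by unfold RTM.nd; omega), e1,
      ← RTM.nL_eq]
    exact (D.num_left_move _ _ _).symm
  · have e1 : D.dig c (j - D.tapes) = D.num (c.work ⟨j - 2 - D.tapes, h4⟩).left := by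
      unfold RTM.dig
      rw [if_neg (by omega), if_neg (by omega), dif_pos (by omega)]
      congr 3
      apply Fin.ext
      simp only
      omega
    have e1' : D.dig c (j + D.tapes) = D.num (c.work ⟨j - 2 - D.tapes, h4⟩).right := by
      unfold RTM.dig
      rw [if_neg (by omega), if_neg (by clear * - h3 h4; omega), dif_neg (by omega),
        dif_neg (by omega), dif_pos (by omega)]
      congr 3
      apply Fin.ext
      simp only
      omega
    have e2 : val D (vw y c) (2 + 2 * (j - 2 - D.tapes)) =
        D.cS ((D.trans (vw y c).1 (vw y c).2.1 (vw y c).2.2 false).2.2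
          ⟨j - 2 - D.tapes, h4⟩).1 := by
      have e3 : (2 + 2 * (j - 2 - D.tapes) - 2) / 2 = j - 2 - D.tapes := by omega
      unfold val
      rw [if_neg (by omega), if_neg (by omega)]
      simp only [e3]
      rw [dif_pos h4, if_pos (by omega)]
    have e4 : val D (vw y c) (3 + 2 * (j - 2 - D.tapes)) =
        dcode ((D.trans (vw y c).1 (vw y c).2.1 (vw y c).2.2 false).2.2
          ⟨j - 2 - D.tapes, h4⟩).2 := by
      have e3 : (3 + 2 * (j - 2 - D.tapes) - 2) / 2 = j - 2 - D.tapes := by omega
      unfold val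
      rw [if_neg (by omega), if_neg (by omega)]
      simp only [e3]
      rw [dif_pos h4, if_neg (by omega)]
    rw [G.p5 _ _ (by omega), G.p5 _ _ (by omega), e2, e4, dgt_enc hs (by unfold RTM.nd; omega),
      dgt_enc hs (by unfold RTM.nd; omega), e1, e1', ← RTM.nH_eq]
    exact (D.cS_head_move _ _ _).symm
  · have e1 : D.dig c j = D.num (c.work ⟨j - 2 - D.tapes - D.tapes, h5⟩).right := by
      unfold RTM.dig
      rw [if_neg h1, if_neg h2, dif_neg h3, dif_neg h4, dif_pos h5]
    have e2 : val D (vw y c) (2 + 2 * (j - 2 - D.tapes - D.tapes)) =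
        D.cS ((D.trans (vw y c).1 (vw y c).2.1 (vw y c).2.2 false).2.2
          ⟨j - 2 - D.tapes - D.tapes, h5⟩).1 := by
      have e3 : (2 + 2 * (j - 2 - D.tapes - D.tapes) - 2) / 2 = j - 2 - D.tapes - D.tapes := by
        omega
      unfold val
      rw [if_neg (by omega), if_neg (by omega)]
      simp only [e3]
      rw [dif_pos h5, if_pos (by omega)]
    have e4 : val D (vw y c) (3 + 2 * (j - 2 - D.tapes - D.tapes)) =
        dcode ((D.trans (vw y c).1 (vw y c).2.1 (vw y c).2.2 false).2.2
          ⟨j - 2 - D.tapes - D.tapes, h5⟩).2 := by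
      have e3 : (3 + 2 * (j - 2 - D.tapes - D.tapes) - 2) / 2 = j - 2 - D.tapes - D.tapes := by
        omega
      unfold val
      rw [if_neg (by omega), if_neg (by omega)]
      simp only [e3]
      rw [dif_pos h5, if_neg (by omega)]
    rw [G.p5 _ _ (by omega), G.p5 _ _ (by omega), e2, e4, dgt_enc hs (by unfold RTM.nd; omega), e1,
      ← RTM.nR_eq]
    exact (D.num_right_move _ _ _).symm
  · rfl

theorem und'_eq (G : Good D P W) : und' P = D.nd := by
  unfold und' RTM.nd
  rw [G.p0]
  ring

theorem uver_eq (G : Good D P W) (hs : D.Small W c) :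
    uver P (D.enc W c) = vc (D.verdict c.state) := by
  unfold uver
  rw [G.p7, dgt_enc hs nd_pos]
  have : D.dig c 0 = D.cQ c.state := by simp [RTM.dig]
  rw [this, G.p4]

theorem dig_big {j : ℕ} (hj : D.nd ≤ j) : D.dig c j = 0 := by
  unfold RTM.nd at hj
  unfold RTM.dig
  rw [if_neg (by omega), if_neg (by omega), dif_neg (by omega), dif_neg (by omega),
    dif_neg (by omega)]

theorem small_of_lt (h : ∀ j < D.nd, D.dig c j < W) : D.Small W c := by
  intro j
  by_cases hj : j < D.nd
  · exact h j hj
  · rw [dig_big (by omega)]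
    have := h 0 nd_pos
    omega

/-- One step of the simulation from a running configuration. -/
theorem ustep_run (hD : D.Deterministic) (G : Good D P W) (hN : D.g ^ D.tapes ≤ N)
    (hWN : W ^ D.nd ≤ N) (hs : D.Small W c) (hv : D.verdict c.state = none) (b : Bool) :
    (D.Small W (D.step y c b) ∧ ustep (fun p => syc (inSym y p)) y.length P N (D.enc W c) =
        D.enc W (D.step y c b)) ∨
      (¬ D.Small W (D.step y c b) ∧
        ustep (fun p => syc (inSym y p)) y.length P N (D.enc W c) = N + 1) := by
  have hlt : D.enc W c < W ^ D.nd := D.enc_lt hs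
  have hle : D.enc W c ≤ N := by omega
  have hW : 0 < W := by have := hs 0; omega
  unfold ustep
  rw [uver_eq G hs, hv]
  rw [if_neg (show ¬ (D.enc W c ≤ N ∧ vc none ≠ 0) from fun h => h.2 rfl), und'_eq G, G.p7,
    ukey_eq G hN hs]
  by_cases hsm : D.Small W (D.step y c b)
  · left
    refine ⟨hsm, ?_⟩
    rw [if_pos ⟨hle, fun j hj => by rw [und_eq hD G hs b hj]; exact hsm j⟩]
    unfold RTM.enc
    refine sum_congr rfl fun j hj => ?_
    rw [mem_range] at hj
    have h1 := und_eq (y := y) hD G hs b hj
    unfold RTM.enc at h1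
    have h2 : W ^ j ≤ W ^ D.nd := Nat.pow_le_pow_right hW hj.le
    rw [h1, min_eq_left (by omega)]
  · right
    refine ⟨hsm, ?_⟩
    rw [if_neg]
    rintro ⟨_, h2⟩
    apply hsm
    apply small_of_lt
    intro j hj
    have := h2 j hj
    rwa [und_eq hD G hs b hj] at this

theorem ustep_halt (G : Good D P W) (hWN : W ^ D.nd ≤ N) (hs : D.Small W c)
    (hv : D.verdict c.state ≠ none) (sy : ℕ → ℕ) (n : ℕ) :
    ustep sy n P N (D.enc W c) = D.enc W c := by
  have hlt : D.enc W c < W ^ D.nd := D.enc_lt hs
  unfold ustep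
  rw [uver_eq G hs, if_pos ⟨by omega, fun h => hv (vc_zero h)⟩]

theorem ustep_fail (P : ℕ → ℕ) (N : ℕ) (sy : ℕ → ℕ) (n : ℕ) :
    ustep sy n P N (N + 1) = N + 1 := by
  unfold ustep
  rw [if_neg (by omega), if_neg (by omega)]

end digits

section run

variable {P : ℕ → ℕ} {W N : ℕ} {y : List Bool} {ω : ℕ → Bool}

/-- The verdict, once given, is final. -/
theorem verdict_mono {t : ℕ} {r : Bool} (h : D.verdict (D.run y ω t).state = some r) :
    ∀ t', t ≤ t' → D.run y ω t' = D.run y ω t := by
  intro t' ht
  induction t', ht using Nat.le_induction with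
  | base => rfl
  | succ m _ ih =>
    have h1 : D.verdict (D.run y ω m).state = some r := by rw [ih, h]
    simp only [RTM.run, h1]
    exact ih

theorem verdict_unique {t t' : ℕ} {r r' : Bool} (h : D.verdict (D.run y ω t).state = some r)
    (h' : D.verdict (D.run y ω t').state = some r') : r = r' := by
  rcases le_total t t' with hle | hle
  · rw [verdict_mono h t' hle, h] at h'
    exact Option.some.inj h'
  · rw [verdict_mono h' t hle, h'] at h
    exact (Option.some.inj h).symm

/-- The invariant of the simulation. -/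
theorem iter_spec (hD : D.Deterministic) (G : Good D P W) (hN : D.g ^ D.tapes ≤ N)
    (hWN : W ^ D.nd ≤ N) (h0 : D.cQ D.start < W) : ∀ t,
    (D.Small W (D.run y ω t) ∧ (ustep (fun p => syc (inSym y p)) y.length P N)^[t] (P 3) =
        D.enc W (D.run y ω t)) ∨
      ((∃ t' ≤ t, ¬ D.Small W (D.run y ω t')) ∧
        (ustep (fun p => syc (inSym y p)) y.length P N)^[t] (P 3) = N + 1) := by
  intro t
  induction t with
  | zero =>
    left
    have hs : D.Small W D.init := by
      intro j
      by_cases hj : j = 0
      · subst hj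
        have : D.dig D.init 0 = D.cQ D.start := by simp [RTM.dig, RTM.init]
        rw [this]; exact h0
      · have h1 : D.dig D.init j = 0 := by
          unfold RTM.dig RTM.init
          split_ifs <;> simp_all [RTM.num, RTM.cS_blank]
        rw [h1]; omega
    refine ⟨hs, ?_⟩
    show P 3 = D.enc W D.init
    rw [D.enc_init, G.p3]
  | succ t ih =>
    rw [Function.iterate_succ_apply']
    rcases ih with ⟨h1, h2⟩ | ⟨⟨t', ht', h1⟩, h2⟩
    · rw [h2]
      cases hv : D.verdict (D.run y ω t).state with
      | some r =>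
        left
        have h3 : D.run y ω (t + 1) = D.run y ω t := verdict_mono hv _ (by omega)
        rw [h3]
        exact ⟨h1, ustep_halt G hWN h1 (by rw [hv]; simp) _ _⟩
      | none =>
        have h3 : D.run y ω (t + 1) = D.step y (D.run y ω t) (ω t) := by
          simp only [RTM.run, hv]
        rcases ustep_run (y := y) hD G hN hWN h1 hv (ω t) with ⟨a1, a2⟩ | ⟨a1, a2⟩
        · left
          rw [h3]
          exact ⟨a1, a2⟩
        · right
          refine ⟨⟨t + 1, le_rfl, ?_⟩, a2⟩
          rw [h3]; exact a1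
    · right
      rw [h2]
      exact ⟨⟨t', by omega, h1⟩, ustep_fail _ _ _ _⟩

/-- A machine which fits and halts does it soon. -/
theorem halts_soon (hD : D.Deterministic) (G : Good D P W) (hN : D.g ^ D.tapes ≤ N)
    (hWN : W ^ D.nd ≤ N) (h0 : D.cQ D.start < W) (hsm : ∀ t, D.Small W (D.run y ω t)) {t0 : ℕ}
    {r : Bool} (ht0 : D.verdict (D.run y ω t0).state = some r) :
    D.verdict (D.run y ω (N + 1)).state = some r := by
  set f := ustep (fun p => syc (inSym y p)) y.length P N with hf
  have hit : ∀ t, f^[t] (P 3) = D.enc W (D.run y ω t) := by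
    intro t
    rcases iter_spec (y := y) (ω := ω) hD G hN hWN h0 t with ⟨_, h⟩ | ⟨⟨t', _, h⟩, _⟩
    · exact h
    · exact absurd (hsm t') h
  by_contra hcon
  -- no verdict before
  have hnone : ∀ t ≤ N + 1, D.verdict (D.run y ω t).state = none := by
    intro t ht
    cases hv : D.verdict (D.run y ω t).state with
    | none => rfl
    | some r' =>
      exfalso
      apply hcon
      rw [verdict_mono hv _ ht, hv, verdict_unique hv ht0]
  -- two equal codes
  obtain ⟨i, hi, j, hj, hij, hE⟩ : ∃ i ∈ range (N + 1), ∃ j ∈ range (N + 1), i ≠ j ∧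
      f^[i] (P 3) = f^[j] (P 3) := by
    apply exists_ne_map_eq_of_card_lt_of_maps_to (t := range N)
    · rw [card_range, card_range]; omega
    · intro t _
      have h1 : f^[t] (P 3) = D.enc W (D.run y ω t) := hit t
      have h2 := D.enc_lt (hsm t)
      simp only [coe_range, Set.mem_Iio]
      omega
  rw [mem_range] at hi hj
  wlog hlt : i < j generalizing i j with H
  · exact H j hj i hi hij.symm hE.symm (by omega)
  -- the codes are periodic
  have hper : ∀ m, f^[i + m * (j - i)] (P 3) = f^[i] (P 3) := by
    intro m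
    induction m with
    | zero => simp
    | succ m ih =>
      rw [show i + (m + 1) * (j - i) = (j - i) + (i + m * (j - i)) by ring,
        Function.iterate_add_apply, ih, ← Function.iterate_add_apply,
        show j - i + i = j by omega]
      exact hE.symm
  have h1 := hper t0
  have h2 : t0 ≤ i + t0 * (j - i) := by
    have : t0 * 1 ≤ t0 * (j - i) := Nat.mul_le_mul_left _ (by omega)
    omega
  have h3 : D.verdict (D.run y ω (i + t0 * (j - i))).state = some r := by
    rw [verdict_mono ht0 _ h2, ht0]
  rw [hit, hit] at h1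
  have h4 := uver_eq G (hsm (i + t0 * (j - i)))
  have h5 := uver_eq G (hsm i)
  rw [h1, h5, h3, hnone i (by omega)] at h4
  cases r <;> simp [vc] at h4

end run

theorem pos_le (y : List Bool) (ω : ℕ → Bool) : ∀ t, (D.run y ω t).pos ≤ y.length + 1 := by
  intro t
  induction t with
  | zero => simp [RTM.run, RTM.init]
  | succ t ih =>
    cases hv : D.verdict (D.run y ω t).state with
    | some r =>
      have h3 : D.run y ω (t + 1) = D.run y ω t := verdict_mono hv _ (by omega)
      rw [h3]; exact ih
    | none =>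
      have h3 : D.run y ω (t + 1) = D.step y (D.run y ω t) (ω t) := by
        simp only [RTM.run, hv]
      rw [h3]
      show moveIn _ _ _ ≤ _
      rw [moveIn_eq]
      unfold dsel
      split_ifs <;> omega

/-- MODULE U1. -/
theorem usimSpec : UsimSpec := by
  intro D hD
  refine ⟨par D, big D, par_le D, ?_⟩
  intro y ω t0 r ht0 W N hN
  have G := good D W
  have hgN : D.g ^ D.tapes ≤ N := by
    refine le_trans ?_ hN
    unfold big; omega
  have e3 : wpar (par D) W 3 = D.cQ D.start := rfl
  have e7 : wpar (par D) W 7 = W := rfl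
  constructor
  · unfold usim
    rw [und'_eq G, e7]
    split_ifs with h
    · obtain ⟨h1, h2, h3⟩ := h
      rw [e3] at h2
      rcases iter_spec (y := y) (ω := ω) hD G hgN h1 h2 (N + 1) with ⟨a1, a2⟩ | ⟨_, a2⟩
      · rw [a2, uver_eq G a1]
        cases hv : D.verdict (D.run y ω (N + 1)).state with
        | none => left; rfl
        | some r' => right; rw [verdict_unique hv ht0, vc_some]
      · exfalso
        rw [a2] at h3
        omega
    · left; rfl
  · intro s hs hW hWN
    have hb1 : 1 ≤ big D := by unfold big; omega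
    have hbs : big D ≤ big D ^ (s + 1) := by
      calc big D = big D ^ 1 := (pow_one _).symm
        _ ≤ big D ^ (s + 1) := Nat.pow_le_pow_right hb1 (by omega)
    have hcard : Fintype.card D.State ≤ big D := par_le D 2
    have hg : D.g ≤ big D := par_le D 1
    have hnd : D.nd ≤ big D := by unfold big; omega
    have hst : D.cQ D.start < W := by
      have := D.cQ_lt D.start
      omega
    have hWnd : W ^ D.nd ≤ N :=
      (Nat.pow_le_pow_right (by omega) hnd).trans hWN
    have hsm : ∀ t, D.Small W (D.run y ω t) := by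
      intro t
      refine D.small_of (n := y.length) (S := s) (by omega) (by omega) ?_ (pos_le y ω t)
        (fun i => hs t i)
      have : D.g ^ (s + 1) ≤ big D ^ (s + 1) := Nat.pow_le_pow_left hg _
      omega
    have hh := halts_soon (y := y) (ω := ω) hD G hgN hWnd hst hsm ht0
    have hi : (ustep (fun p => syc (inSym y p)) y.length (wpar (par D) W) N)^[N + 1]
        (wpar (par D) W 3) = D.enc W (D.run y ω (N + 1)) := by
      rcases iter_spec (y := y) (ω := ω) hD G hgN hWnd hst (N + 1) with ⟨_, h⟩ | ⟨⟨t', _, h⟩, _⟩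
      · exact h
      · exact absurd (hsm t') h
    have hlt := D.enc_lt (hsm (N + 1))
    unfold usim
    rw [und'_eq G, e7, hi, if_pos ⟨hWnd, by rw [e3]; exact hst, by omega⟩, uver_eq G (hsm _), hh,
      vc_some]

end Vale.Agent.P313.UD.U1
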