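import Vale.Agent.P313.H463.UD.Defs

/-!
Universal derandomization, module U1, part a: the tables of a deterministic machine.
-/

namespace Vale.Agent.P313.UD.U1

open Finset

/-- Code of a verdict or of no verdict. -/
def vc : Option Bool → ℕ
  | none => 0
  | some false => 1
  | some true => 2

theorem vc_lt (o : Option Bool) : vc o < 3 := by
  rcases o with _ | _ | _ <;> simp [vc]

theorem vc_some (r : Bool) : vc (some r) = cd r := by cases r <;> rfl

theorem vc_zero {o : Option Bool} (h : vc o = 0) : o = none := by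
  rcases o with _ | _ | _ <;> simp [vc] at h ⊢

theorem syc_lt (s : InSym) : syc s < 4 := by
  rcases s with _ | _ | b
  · simp [syc]
  · simp [syc]
  · cases b <;> simp [syc]

theorem syc_inj {s s' : InSym} (h : syc s = syc s') : s = s' := by
  rcases s with _ | _ | b <;> rcases s' with _ | _ | b' <;> try cases b <;> try cases b' <;>
    simp [syc] at h ⊢
  all_goals (try cases b') <;> simp [syc] at h ⊢

variable (D : RTM)

/-- Everything the transition function sees, without the coin. -/
abbrev KT := D.State × InSym × (Fin D.tapes → D.Sym)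

/-- The codes of the scanned symbols. -/
noncomputable def hdg (h : Fin D.tapes → D.Sym) (j : ℕ) : ℕ :=
  if hj : j < D.tapes then D.cS (h ⟨j, hj⟩) else 0

theorem hdg_lt (h : Fin D.tapes → D.Sym) (j : ℕ) : hdg D h j < D.g := by
  unfold hdg
  split_ifs
  · exact D.cS_lt _
  · have := D.two_le_g; omega

/-- The code of the tuple of scanned symbols. -/
noncomputable def hcode (h : Fin D.tapes → D.Sym) : ℕ := ∑ j ∈ range D.tapes, hdg D h j * D.g ^ j

theorem hcode_inj {h h' : Fin D.tapes → D.Sym} (H : hcode D h = hcode D h') : h = h' := by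
  have hg : 0 < D.g := by have := D.two_le_g; omega
  funext i
  have h1 := digit_sum hg (hdg D h) (hdg_lt D h) D.tapes i i.isLt
  have h2 := digit_sum hg (hdg D h') (hdg_lt D h') D.tapes i i.isLt
  have h3 : hdg D h i = hdg D h' i := by
    rw [← h1, ← h2]
    have H' : ∑ j ∈ range D.tapes, hdg D h j * D.g ^ j =
      ∑ j ∈ range D.tapes, hdg D h' j * D.g ^ j := H
    rw [H']
  unfold hdg at h3
  rw [dif_pos i.isLt, dif_pos i.isLt] at h3
  exact D.cS_inj h3

/-- The code of a key. -/
noncomputable def kcode (t : KT D) : ℕ :=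
  D.cQ t.1 + Fintype.card D.State * (syc t.2.1 + 4 * hcode D t.2.2)

theorem kcode_inj {t t' : KT D} (H : kcode D t = kcode D t') : t = t' := by
  have hc : 0 < Fintype.card D.State := Fintype.card_pos_iff.2 ⟨t.1⟩
  have e1 : ∀ t : KT D, kcode D t % Fintype.card D.State = D.cQ t.1 := by
    intro t
    unfold kcode
    rw [Nat.add_mul_mod_self_left, Nat.mod_eq_of_lt (D.cQ_lt _)]
  have e2 : ∀ t : KT D, kcode D t / Fintype.card D.State = syc t.2.1 + 4 * hcode D t.2.2 := by
    intro t
    unfold kcode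
    rw [Nat.add_mul_div_left _ _ hc, Nat.div_eq_of_lt (D.cQ_lt _), zero_add]
  have h1 : D.cQ t.1 = D.cQ t'.1 := by rw [← e1, ← e1, H]
  have h2 : syc t.2.1 + 4 * hcode D t.2.2 = syc t'.2.1 + 4 * hcode D t'.2.2 := by
    rw [← e2, ← e2, H]
  have h3 := syc_lt t.2.1
  have h4 := syc_lt t'.2.1
  obtain ⟨q, s, h⟩ := t
  obtain ⟨q', s', h'⟩ := t'
  simp only at h1 h2 h3 h4
  rw [D.cQ_inj h1, syc_inj (show syc s = syc s' by omega),
    hcode_inj D (show hcode D h = hcode D h' by omega)]

/-- The table of the transition function. -/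
noncomputable def val (t : KT D) (c : ℕ) : ℕ :=
  if c = 0 then D.cQ (D.trans t.1 t.2.1 t.2.2 false).1
  else if c = 1 then dcode (D.trans t.1 t.2.1 t.2.2 false).2.1
  else if h : (c - 2) / 2 < D.tapes then
    if c % 2 = 0 then D.cS ((D.trans t.1 t.2.1 t.2.2 false).2.2 ⟨(c - 2) / 2, h⟩).1
    else dcode ((D.trans t.1 t.2.1 t.2.2 false).2.2 ⟨(c - 2) / 2, h⟩).2
  else 0

theorem dcode_lt (d : Dir) : dcode d < 3 := by cases d <;> simp [dcode]

/-- The radix of the table. -/
noncomputable def rad : ℕ := Fintype.card D.State + D.g + 3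

theorem val_lt (t : KT D) (c : ℕ) : val D t c < rad D := by
  unfold val rad
  split_ifs with h1 h2 h3 h4
  · have := D.cQ_lt (D.trans t.1 t.2.1 t.2.2 false).1; omega
  · have := dcode_lt (D.trans t.1 t.2.1 t.2.2 false).2.1; omega
  · have := D.cS_lt ((D.trans t.1 t.2.1 t.2.2 false).2.2 ⟨(c - 2) / 2, h3⟩).1; omega
  · have := dcode_lt ((D.trans t.1 t.2.1 t.2.2 false).2.2 ⟨(c - 2) / 2, h3⟩).2; omega
  · omega

open Classical in
/-- The table as a sequence of digits. -/
noncomputable def tbd (j : ℕ) : ℕ :=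
  if h : ∃ t : KT D, kcode D t = j / (2 + 2 * D.tapes) then
    val D h.choose (j % (2 + 2 * D.tapes)) else 0

theorem tbd_lt (j : ℕ) : tbd D j < rad D := by
  unfold tbd
  split_ifs
  · exact val_lt D _ _
  · unfold rad; omega

theorem tbd_eq (t : KT D) {c : ℕ} (hc : c < 2 + 2 * D.tapes) :
    tbd D (kcode D t * (2 + 2 * D.tapes) + c) = val D t c := by
  have h1 : (kcode D t * (2 + 2 * D.tapes) + c) / (2 + 2 * D.tapes) = kcode D t := by
    rw [mul_comm, Nat.mul_add_div (by omega), Nat.div_eq_of_lt hc, add_zero]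
  have h2 : (kcode D t * (2 + 2 * D.tapes) + c) % (2 + 2 * D.tapes) = c := by
    rw [mul_comm, Nat.mul_add_mod, Nat.mod_eq_of_lt hc]
  unfold tbd
  rw [h1, h2]
  have hex : ∃ t' : KT D, kcode D t' = kcode D t := ⟨t, rfl⟩
  rw [dif_pos hex, kcode_inj D hex.choose_spec]

/-- The length of the table. -/
noncomputable def tln : ℕ := ∑ t : KT D, (kcode D t + 1) * (2 + 2 * D.tapes)

theorem tln_gt (t : KT D) {c : ℕ} (hc : c < 2 + 2 * D.tapes) :
    kcode D t * (2 + 2 * D.tapes) + c < tln D := by
  have h1 : (kcode D t + 1) * (2 + 2 * D.tapes) ≤ tln D :=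
    single_le_sum (f := fun t : KT D => (kcode D t + 1) * (2 + 2 * D.tapes))
      (fun i _ => Nat.zero_le _) (mem_univ t)
  have h2 : (kcode D t + 1) * (2 + 2 * D.tapes) =
      kcode D t * (2 + 2 * D.tapes) + (2 + 2 * D.tapes) := by ring
  omega

/-- The table of the verdicts as a sequence of digits. -/
noncomputable def vbd (j : ℕ) : ℕ :=
  if h : j < Fintype.card D.State then
    vc (D.verdict ((Fintype.equivFin D.State).symm ⟨j, h⟩)) else 0

theorem vbd_lt (j : ℕ) : vbd D j < 3 := by
  unfold vbd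
  split_ifs
  · exact vc_lt _
  · omega

theorem vbd_eq (q : D.State) : vbd D (D.cQ q) = vc (D.verdict q) := by
  unfold vbd
  rw [dif_pos (D.cQ_lt q)]
  congr 2
  rw [Equiv.symm_apply_eq]
  rfl

/-- The parameters. -/
noncomputable def par (i : ℕ) : ℕ :=
  if i = 0 then D.tapes else if i = 1 then D.g else if i = 2 then Fintype.card D.State
  else if i = 3 then D.cQ D.start
  else if i = 4 then ∑ j ∈ range (Fintype.card D.State), vbd D j * 3 ^ j
  else if i = 5 then ∑ j ∈ range (tln D), tbd D j * rad D ^ j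
  else if i = 6 then rad D else 0

/-- The bound for all constants. -/
noncomputable def big : ℕ :=
  par D 0 + par D 1 + par D 2 + par D 3 + par D 4 + par D 5 + par D 6 + D.g ^ D.tapes + D.nd + 1

theorem par_le (i : ℕ) : par D i ≤ big D := by
  unfold big
  by_cases h : i < 7
  · interval_cases i <;> omega
  · have : par D i = 0 := by
      unfold par
      rw [if_neg (by omega), if_neg (by omega), if_neg (by omega), if_neg (by omega),
        if_neg (by omega), if_neg (by omega), if_neg (by omega)]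
    omega

/-- What the simulation needs to know about the parameters. -/
structure Good (P : ℕ → ℕ) (W : ℕ) : Prop where
  p0 : P 0 = D.tapes
  p1 : P 1 = D.g
  p2 : P 2 = Fintype.card D.State
  p3 : P 3 = D.cQ D.start
  p4 : ∀ q, P 4 / 3 ^ D.cQ q % 3 = vc (D.verdict q)
  p5 : ∀ t c, c < 2 + 2 * D.tapes → utab P (kcode D t) c = val D t c
  p7 : P 7 = W

theorem good (W : ℕ) : Good D (wpar (par D) W) W where
  p0 := rfl
  p1 := rfl
  p2 := rfl
  p3 := rfl
  p4 := by
    intro q
    have h1 : wpar (par D) W 4 = ∑ j ∈ range (Fintype.card D.State), vbd D j * 3 ^ j := rfl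
    rw [h1, digit_sum (by norm_num) _ (vbd_lt D) _ _ (D.cQ_lt q), vbd_eq]
  p5 := by
    intro t c hc
    have h0 : wpar (par D) W 0 = D.tapes := rfl
    have h5 : wpar (par D) W 5 = ∑ j ∈ range (tln D), tbd D j * rad D ^ j := rfl
    have h6 : wpar (par D) W 6 = rad D := rfl
    unfold utab
    rw [h0, h5, h6, digit_sum (by unfold rad; omega) _ (tbd_lt D) _ _ (tln_gt D t hc),
      tbd_eq D t hc]
  p7 := rfl

end Vale.Agent.P313.UD.U1
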